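import Vale.Agent.P290Z.Lat.Spec

/-!
# P247G: lattice notions for an arbitrary rank

The definitions of `P247X/Spec.lean` (section lattice) with `Fin 22` replaced by any finite type.
-/

open Set

namespace Vale.Agent.P247G

open Vale.Agent.P290.H726 (bil)
open Vale.Agent.P290Z.Lat (cs Ev Sig)

variable {ι : Type} [Fintype ι] [DecidableEq ι] (G : Matrix ι ι ℤ)

/-- even unimodular lattices with positive index three -/
structure IsEU : Prop where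
  symm : ∀ i j, G i j = G j i
  even : Ev G
  unit : IsUnit G.det
  sig : Sig G 3

/-- roots -/
def Root (ρ : ι → ℤ) : Prop := bil G ρ ρ = -2

/-- positive triples -/
def PosT (a : Fin 3 → ι → ℝ) : Prop := (Matrix.of fun i j => bil G (a i) (a j)).PosDef

/-- one-slot moves of periods inside a chamber -/
def LMove (a a' : Fin 3 → ι → ℝ) : Prop := ∃ i, (∀ j, j ≠ i → a' j = a j) ∧
  (∀ s ∈ Icc (0 : ℝ) 1, PosT G fun j => (1 - s) • a j + s • a' j) ∧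
  ∀ ρ, Root G ρ → (∀ j, j ≠ i → bil G (cs ℝ ρ) (a j) = 0) → 0 < bil G (cs ℝ ρ) (a i) →
    0 < bil G (cs ℝ ρ) (a' i)

/-- `r` is a wall of the chamber of `k 2` in the orthogonal complement of `k 0`, `k 1` -/
def Wall (k : Fin 3 → ι → ℝ) (r : ι → ℤ) : Prop :=
  Root G r ∧ bil G (cs ℝ r) (k 0) = 0 ∧ bil G (cs ℝ r) (k 1) = 0 ∧
  ∃ a : ι → ℝ, (∀ s ∈ Icc (0 : ℝ) 1, PosT G ![k 0, k 1, (1 - s) • k 2 + s • a]) ∧
    bil G (cs ℝ r) a = 0 ∧ ∀ ρ, Root G ρ → bil G (cs ℝ ρ) (k 0) = 0 → bil G (cs ℝ ρ) (k 1) = 0 →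
      0 < bil G (cs ℝ ρ) (k 2) → ρ = r ∨ 0 < bil G (cs ℝ ρ) a

/-- The double Kummer configuration, with periods `k`. -/
structure DK where
  d : Fin 4 → Fin 4 → ι → ℤ
  C : Fin 4 → ι → ℤ
  D : Fin 4 → ι → ℤ
  F₁ : ι → ℤ
  F₂ : ι → ℤ
  k : Fin 3 → ι → ℝ
  dd : ∀ i j i' j', bil G (d i j) (d i' j') = if i = i' ∧ j = j' then -2 else 0
  CC : ∀ i i', bil G (C i) (C i') = if i = i' then -2 else 0
  DD : ∀ j j', bil G (D j) (D j') = if j = j' then -2 else 0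
  CD : ∀ i j, bil G (C i) (D j) = 0
  Cd : ∀ i i' j, bil G (C i) (d i' j) = if i = i' then 1 else 0
  Dd : ∀ j i j', bil G (D j) (d i j') = if j = j' then 1 else 0
  hF₁ : ∀ i, F₁ = (2 : ℤ) • C i + ∑ j, d i j
  hF₂ : ∀ j, F₂ = (2 : ℤ) • D j + ∑ i, d i j
  pos : PosT G k
  wd : ∀ i j, Wall G k (d i j)
  wC : ∀ i, Wall G k (C i)
  wD : ∀ j, Wall G k (D j)
  /-- the configuration spans the integral classes orthogonal to `k 0`, `k 1` rationally -/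
  gen : ∀ v : ι → ℤ, bil G (cs ℝ v) (k 0) = 0 → bil G (cs ℝ v) (k 1) = 0 →
    (∀ i j, bil G v (d i j) = 0) → (∀ i, bil G v (C i) = 0) → (∀ j, bil G v (D j) = 0) → v = 0

/-- the rank modulo eight -/
def MOD8_statement : Prop := ∀ (n : ℕ) (G : Matrix (Fin n) (Fin n) ℤ), IsEU G → n % 8 = 6

/-- block K for any rank `≥ 22` -/
def PERIOD_statement : Prop := ∀ (n : ℕ) (G : Matrix (Fin n) (Fin n) ℤ), IsEU G → 22 ≤ n →
  ∀ a : Fin 3 → Fin n → ℝ, PosT G a → (∀ ρ, Root G ρ → ∃ i, bil G (cs ℝ ρ) (a i) ≠ 0) →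
  ∃ K : DK G, Relation.ReflTransGen (LMove G) a K.k

end Vale.Agent.P247G
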