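import Vale.Agent.P247G.Lat
import Vale.Agent.P247M.MarkN
import Vale.Agent.P247A.SpecQ

/-!
# P247G: the rows `LAT8`, `ASMN`, `ASM3`
-/

set_option linter.all false

namespace Vale.Agent.P247G

open Vale.Agent.P247A Vale.Agent.P247X Vale.Agent.P247E Vale.Agent.P247.SCY

theorem lat8 : LAT8_statement := fun r G h1 h2 h3 h4 => mod8 r G ⟨h1, h2, h3, h4⟩

theorem asmn : ASMN_statement := fun hE h8 h3 X _ μ h w hw => by
  obtain ⟨n, G, c, hG, hc, hg, hs, -, -, hn⟩ := P247M.markN hE h.vol h.bp hw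
  have k1 := h8 n G hG.symm hG.even hG.unit hG.sig
  have k2 := h3 X μ h w hw n c ⟨hc, hs, by
    rw [show (Matrix.of fun i j => HS.pair μ (c i) (c j)) = (Int.castRingHom ℝ).mapMatrix G from
      Matrix.ext hg, ← RingHom.map_det]
    exact (hG.unit.map _).ne_zero⟩
  by_contra k
  have := hn 19 k
  omega

theorem asm3 : ASM3_statement := fun hP hZ hD X i μ h w hw r c hc => by
  obtain ⟨d, hd, Q, c', h1, h2⟩ := hD X μ h.vol w hw h.b1 r c hc
  have a1 : @CompactSpace X d.toPseudoMetricSpace.toUniformSpace.toTopologicalSpace :=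
    hd ▸ i.cpt
  have a2 : @ConnectedSpace X d.toPseudoMetricSpace.toUniformSpace.toTopologicalSpace :=
    hd ▸ i.conn
  have a3 : @BorelSpace X d.toPseudoMetricSpace.toUniformSpace.toTopologicalSpace
    i.toMeasurableSpace := hd ▸ i.borel
  obtain ⟨ε, hε, k⟩ := @hP X d a1 a2 i.toMeasurableSpace a3 Q (LBc.triv _) h1 r c' h2
  obtain ⟨φ, φ', k1, k2, k3⟩ := @hZ X d a1 a2 i.toMeasurableSpace a3 Q (LBc.triv _)
  rw [k φ k1, k φ' k2] at k3
  rcases hε with rfl | rfl <;> omega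

end Vale.Agent.P247G
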