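import Vale.Agent.P247G.Defs
import Vale.Agent.P290Z.Lat.Basic
import Vale.Agent.P290Z.Lat.Model
import Vale.Agent.P290Z.Lat.Comp
import Vale.Agent.P290Z.Lat.Diag
import Vale.Agent.P290Z.Lat.Rec
import Vale.Agent.P290Z.Lat.Mod

/-!
# P247G: even unimodular lattices, the rank modulo eight and uniqueness
-/

set_option linter.all false

open Set Matrix
open Vale.Agent.P290.H726 Vale.Agent.P290Z.Lat

namespace Vale.Agent.P247G

variable {ι ι' κ : Type} [Fintype ι] [DecidableEq ι] [Fintype ι'] [DecidableEq ι'] [Fintype κ]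
  [DecidableEq κ] {G : Matrix ι ι ℤ} {G' : Matrix ι' ι' ℤ} {N : Matrix κ κ ℤ} {r : ℕ}

theorem diagI (hs : ∀ i j, G i j = G j i) (hu : IsUnit G.det) : ∃ ε : Fin 2 ⊕ ι → ℤ,
    (∀ i, ε i = 1 ∨ ε i = -1) ∧ Equi (diagonal ε) (osum HI G) :=
  diag (hyp comp) _ (osum HI G) (osum_symm (fun i j => by fin_cases i <;> fin_cases j <;> rfl) hs)
    (by rw [det_osum]; exact IsUnit.mul (by simp [HI, det_fin_two]) hu)
    ⟨⟨Pi.single (.inl 0) 1, by rw [Rec.bil_D]; simp [bil]⟩,
      ⟨Pi.single (.inl 1) 1, by rw [Rec.bil_D]; simp [bil]⟩⟩ fun he => by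
      have := he (Pi.single (.inl 0) 1)
      rw [Rec.bil_D] at this
      simpa [bil] using this

theorem sig_succ (h : Sig G r) : Sig (osum HI G) (r + 1) := by
  obtain ⟨w, h1, h2⟩ := h
  refine ⟨Fin.cons (Pi.single (.inl 0) 1) fun j => Sum.elim 0 (w j), fun a ha => ?_,
    fun x hx h3 => ?_⟩
  · have e : (fun i => (∑ j, a j • Fin.cons (α := fun _ => Fin 2 ⊕ ι → ℝ) (Pi.single (.inl 0) 1)
        (fun j => Sum.elim 0 (w j)) j) (.inr i)) = ∑ j, Fin.tail a j • w j := by
      funext i; simp [Fin.sum_univ_succ, Fin.tail]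
    rw [Rec.bil_D, e]
    simp only [Fin.sum_univ_succ, Fin.cons_zero, Fin.cons_succ, Pi.add_apply, Finset.sum_apply,
      Pi.smul_apply, Sum.elim_inl, Pi.zero_apply, smul_zero, Finset.sum_const_zero]
    by_cases q : Fin.tail a = 0
    · have : a 0 ≠ 0 := fun k => ha (funext (Fin.cases k (congrFun q)))
      simpa [q, bil_zero_left] using this
    · simpa using add_pos_of_nonneg_of_pos (mul_self_nonneg (a 0)) (h1 _ q)
  · have h4 : x (.inl 0) = 0 := by simpa [Rec.bil_D, bil_zero_right, ← Pi.zero_def] using h3 0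
    rw [Rec.bil_D, h4]
    by_cases q : (fun i => x (.inr i)) = 0
    · have : x (.inl 1) ≠ 0 := fun k => hx (funext fun i => by
        rcases i with i | i
        · fin_cases i; exacts [h4, k]
        · exact congrFun q i)
      simpa [q, bil_zero_left] using this
    · have := h2 _ q fun j => by simpa [Rec.bil_D] using h3 j.succ
      linarith [mul_self_nonneg (x (.inl 1))]

/-- the signature of an even unimodular lattice is divisible by eight -/
theorem dvd8 (hs : ∀ i j, G i j = G j i) (he : Ev G) (hu : IsUnit G.det) (h : Sig G r) :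
    (8 : ℤ) ∣ 2 * r - Fintype.card ι := by
  obtain ⟨ε, h1, g, hg⟩ := diagI hs hu
  have h2 := DS.sig_diag h1 (DS.sig_equi ⟨g, hg⟩ (sig_succ h))
  obtain ⟨c, hc⟩ := hg.act_surj (R := ℤ) (Sum.elim 1 0)
  have h3 : ∀ i, Odd (c i) := fun i => by
    have k1 := hg.bil c (Pi.single i 1)
    have k2 := hg.bil (Pi.single i (1 : ℤ)) (Pi.single i 1)
    rw [bil_single, diagonal_apply_eq, Rec.bil_D] at k2
    rw [hc, Rec.bil_D, bil_diagonal] at k1
    simp [Pi.single_apply, bil] at k1
    obtain ⟨m, hm⟩ := he fun j => act g (Pi.single i 1) (.inr j)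
    rw [hm] at k2
    obtain ⟨s, hs⟩ := Int.even_mul_pred_self (act g (Pi.single i 1) (.inl 0))
    obtain ⟨t, ht⟩ := Int.even_mul_pred_self (act g (Pi.single i 1) (.inl 1))
    rcases h1 i with k | k <;> rw [k] at k1 k2
    · exact ⟨-m - s + t, by linarith⟩
    · exact ⟨m + s - t, by linarith⟩
  have h4 := hg.bil c c
  rw [hc, Rec.bil_D, bil_diagonal] at h4
  have h5 : (8 : ℤ) ∣ ∑ i, ε i * (c i ^ 2 - 1) :=
    Finset.dvd_sum fun i _ => (Int.eight_dvd_sq_sub_one_of_odd (h3 i)).mul_left _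
  have h6 : ∑ i, ε i = ∑ i, (2 * (if ε i = 1 then 1 else 0) - 1) :=
    Finset.sum_congr rfl fun i _ => by rcases h1 i with k | k <;> simp [k]
  rw [Finset.sum_sub_distrib, ← Finset.mul_sum, Finset.sum_boole, h2] at h6
  simp only [mul_sub, Finset.sum_sub_distrib, sq, ← mul_assoc, mul_one] at h5
  simp only [Int.cast_id] at h4
  rw [← h4, h6] at h5
  simp [bil] at h5
  omega

theorem IsEU.mod (h : IsEU G) : Fintype.card ι % 8 = 6 := by
  have := dvd8 h.symm h.even h.unit h.sig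
  omega

theorem mod8 : MOD8_statement := fun n G h => by simpa using h.mod

theorem IsEU.indef (h : IsEU G) : Indef G := by
  obtain ⟨w, h1, h2⟩ := h.sig
  refine ⟨⟨_, h1 1 one_ne_zero⟩, ?_⟩
  let M : Matrix (Fin 3) ι ℝ := of fun j i => ∑ k, (G i k : ℝ) * w j k
  obtain ⟨x, hx, hx0⟩ := Submodule.exists_mem_ne_zero_of_ne_bot (LinearMap.ker_ne_bot_of_finrank_lt
    (f := M.mulVecLin) (by have := h.mod; simp; omega))
  refine ⟨x, h2 x hx0 fun j => ?_⟩
  rw [← show (M *ᵥ x) j = 0 from congrFun hx j]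
  simp only [bil, M, mulVec, dotProduct, of_apply, Finset.sum_mul]
  exact Finset.sum_congr rfl fun i _ => Finset.sum_congr rfl fun k _ => by ring

/-- uniqueness -/
theorem IsEU.iso (h : IsEU G) (h' : IsEU G') (hc : Fintype.card ι' = Fintype.card ι) :
    Equi G' G := by
  obtain ⟨n, H, a1, a2, a3, a4, -⟩ := hyp comp ι G h.symm h.unit h.indef
  obtain ⟨n', H', b1, b2, b3, b4, -⟩ := hyp comp ι' G' h'.symm h'.unit h'.indef
  obtain rfl : n = n' := by omega
  obtain ⟨ε, a5, a6⟩ := diagI a1 a2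
  obtain ⟨ε', b5, b6⟩ := diagI b1 b2
  exact (b4 h'.even).2.symm.trans ((Vale.Agent.P290Z.Lat.rec _ _ H H' a1 b1 (a4 h.even).1
    (b4 h'.even).1 a2 b2 (b6.symm.trans ((Rec.perm a5 b5 ((DS.sig_diag b5 (DS.sig_equi b6
      (DS.sig_HI (DS.sig_equi (b4 h'.even).2 h'.sig)))).trans (DS.sig_diag a5 (DS.sig_equi a6
      (DS.sig_HI (DS.sig_equi (a4 h.even).2 h.sig)))).symm)).trans a6))).trans (a4 h.even).2)

theorem IsEU.osum (h : IsEU G) (hs : ∀ i j, N i j = N j i) (he : Ev N) (hu : IsUnit N.det)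
    (hn : NegDef N) : IsEU (osum G N) := by
  obtain ⟨w, h1, h2⟩ := h.sig
  refine ⟨osum_symm h.symm hs, fun x => ?_, by rw [det_osum]; exact h.unit.mul hu,
    fun j => Sum.elim (w j) 0, fun a ha => ?_, fun x hx h3 => ?_⟩
  · rw [bil_osum]; exact (h.even _).add (he _)
  · have e : ∑ j, a j • Sum.elim (w j) (0 : κ → ℝ) = Sum.elim (∑ j, a j • w j) 0 := by
      funext i; rcases i with i | i <;> simp [Finset.sum_apply]
    rw [e, bil_osum_elim, bil_zero_left, add_zero]
    exact h1 a ha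
  · rw [bil_osum]
    by_cases q : (fun i => x (.inl i)) = 0
    · rw [q, bil_zero_left, zero_add]
      exact hn _ fun k => hx (funext fun i => by
        rcases i with i | i; exacts [congrFun q i, congrFun k i])
    · exact add_neg_of_neg_of_nonpos (h2 _ q fun j => by
        simpa [bil_osum, bil_zero_right, ← Pi.zero_def] using h3 j) (ModAux.NegDef.le hn _)

/-- sums of copies of `E₈` -/
theorem exists_E8 (m : ℕ) : ∃ N : Matrix (Fin 8 × Fin m) (Fin 8 × Fin m) ℤ,
    (∀ i j, N i j = N j i) ∧ Ev N ∧ IsUnit N.det ∧ NegDef N := by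
  have e : ∀ {R : Type} [CommRing R] (x : Fin 8 × Fin m → R), bil (blockDiagonal fun _ => ModAux.E8)
      x x = ∑ k, bil ModAux.E8 (fun i => x (i, k)) fun i => x (i, k) := fun x => by
    simp only [bil, Fintype.sum_prod_type_right, blockDiagonal_apply]
    refine Finset.sum_congr rfl fun k _ => Finset.sum_congr rfl fun i _ => ?_
    rw [Finset.sum_eq_single k] <;> simp +contextual [eq_comm]
  refine ⟨blockDiagonal fun _ => ModAux.E8, fun i j => ?_, fun x => ?_, ?_, fun x hx => ?_⟩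
  · simp only [blockDiagonal_apply, eq_comm (a := i.2), ModAux.E8_symm i.1]
  · rw [e]; exact Finset.even_sum _ fun k _ => by rw [ModAux.bil_E8]; exact even_two_mul _
  · rw [det_blockDiagonal]
    exact IsUnit.prod_univ_iff.2 fun _ => isUnit_det_of_right_inverse ModAux.E8_mul
  · obtain ⟨⟨i, k⟩, hi⟩ := Function.ne_iff.1 hx
    rw [e]
    exact Finset.sum_neg' (fun k _ => ModAux.NegDef.le ModAux.E8_neg _)
      ⟨k, Finset.mem_univ k, ModAux.E8_neg _ fun q => hi (congrFun q i)⟩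

end Vale.Agent.P247G
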