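import Vale.Agent.P247K.Kum
import Vale.Agent.P247G.Lat

/-!
# P247G: block K for any rank, every period triple is joined to a double Kummer configuration
-/

set_option linter.all false

open Set Matrix
open Vale.Agent.P290.H726 Vale.Agent.P290Z.Lat Vale.Agent.P290Z

namespace Vale.Agent.P247G

open P247K hiding DK

variable {ι ι' κ : Type} [Fintype ι] [DecidableEq ι] [Fintype ι'] [DecidableEq ι'] [Fintype κ]
  [DecidableEq κ] {G : Matrix ι ι ℤ} {G' : Matrix ι' ι' ℤ} {g : Matrix ι ι' ℤ}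
  {N : Matrix κ κ ℤ} {a b : Fin 3 → ι → ℝ} {x y z p : ι → ℝ}

theorem posT (hG : ∀ i j, G i j = G j i) (h : Pos G a) : PosT G a := (pos_iff hG).1 h

theorem tv (hG : ∀ i j, G i j = G j i) (h : Pos G a) {i j : Fin 3} (hij : i ≠ j) (c : ℝ) :
    LMove G a (mul (transvection i j c) a) := by
  have e : ∀ c : ℝ, mul (transvection i j c) a = Function.update a i (a i + c • a j) := fun c => by
    funext k
    by_cases q : k = i
    · simp [mul, lc, transvection, q, add_smul, Finset.sum_add_distrib, one_apply, single_apply,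
        ite_smul]
    · simp [mul, lc, transvection, q, Ne.symm q, one_apply, ite_smul]
  refine ⟨i, fun k hk => by rw [e, Function.update_of_ne hk], fun s _ => ?_, fun ρ _ h0 h1 => ?_⟩
  · have := posT hG (h.mul (A := transvection i j (s * c))
      (by simp [det_transvection_of_ne _ _ hij]))
    convert this using 1
    rw [e, e]
    funext k
    by_cases q : k = i <;> simp [q] <;> module
  · rwa [e, Function.update_self, bil_add_right, bil_smul_right, h0 j hij.symm, mul_zero, add_zero]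

theorem sl3 (hG : ∀ i j, G i j = G j i) {A : Matrix (Fin 3) (Fin 3) ℝ} (hA : A.det = 1) :
    ∀ a, Pos G a → Relation.ReflTransGen (LMove G) a (mul A a) := by
  set P := fun A : SpecialLinearGroup (Fin 3) ℝ =>
    ∀ a, Pos G a → Relation.ReflTransGen (LMove G) a (mul (A : Matrix (Fin 3) (Fin 3) ℝ) a)
  have hm : ∀ A B, P A → P B → P (A * B) := fun A B hA hB a h =>
    (hB a h).trans (by
      have := hA _ (h.mul (A := B) (by simp))
      rwa [mul_mul] at this)
  have ht : ∀ {i j} (hij : i ≠ j) c, P (SpecialLinearGroup.transvection hij c) :=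
    fun hij c a h => .single (tv hG h hij c)
  refine SpecialLinearGroup.diagonal_transvection_induction' P ⟨A, hA⟩ (fun i j hij c hc => ?_)
    (fun _ _ => ht) hm
  rw [show SpecialLinearGroup.diag2n hij c hc = .transvection hij c * .transvection hij.symm (-c⁻¹) *
      .transvection hij c * .transvection hij (-1) * .transvection hij.symm 1 *
      .transvection hij (-1) by
    ext k l
    fin_cases i <;> fin_cases j <;> first | exact (hij rfl).elim | skip
    all_goals fin_cases k <;> fin_cases l <;>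
      simp [SpecialLinearGroup.diag2n_coe, SpecialLinearGroup.transvection_coe, mul_add, add_mul, hc]]
  exact hm _ _ (hm _ _ (hm _ _ (hm _ _ (hm _ _ (ht _ _) (ht _ _)) (ht _ _)) (ht _ _)) (ht _ _))
    (ht _ _)

/-- the criterion of Sylvester -/
theorem of_det (hG : ∀ i j, G i j = G j i) (h : Pos G ![x, y, z])
    (hp : 0 < (P247K.gram G ![x, y, p] ![x, y, p]).det) : Pos G ![x, y, p] := fun c hc => by
  by_cases q : c 2 = 0
  · simpa [lc_three, q] using h c hc
  have h1 : 0 < bil G x x := by simpa [lc_three] using h ![1, 0, 0] (by simp)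
  have h2 := h ![-bil G x y, bil G x x, 0] (by simp [h1.ne'])
  simp [lc_three, P247K.gram, det_fin_three, bil_add_left, bil_add_right, bil_smul_left, bil_smul_right,
    bil_neg_left, bil_neg_right, bil_symm G hG y x, bil_symm G hG p x, bil_symm G hG p y] at h2 hp ⊢
  generalize bil G x x = A at *
  generalize bil G x y = B at *
  generalize bil G y y = C at *
  generalize bil G x p = D at *
  generalize bil G y p = E at *
  generalize bil G p p = F at *
  have h3 : 0 < A * C - B ^ 2 := pos_of_mul_pos_right (a := A) (by nlinarith) h1.le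
  refine pos_of_mul_pos_right (a := A * (A * C - B ^ 2)) ?_ (mul_pos h1 h3).le
  nlinarith [mul_nonneg h3.le (sq_nonneg (A * c 0 + B * c 1 + D * c 2)),
    sq_nonneg ((A * C - B ^ 2) * c 1 + (A * E - B * D) * c 2),
    mul_pos (mul_pos h1 (sub_pos.2 hp)) (sq_pos_iff.2 q)]

theorem seg (hG : ∀ i j, G i j = G j i) (h : Pos G ![x, y, z]) (h' : Pos G ![x, y, p])
    (hp : 0 < (P247K.gram G ![x, y, z] ![x, y, p]).det) {s : ℝ} (hs : s ∈ Icc (0 : ℝ) 1) :
    Pos G ![x, y, (1 - s) • z + s • p] := of_det hG h (by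
  have h1 := ((pos_iff hG).1 h).det_pos
  have h2 := ((pos_iff hG).1 h').det_pos
  have e : (P247K.gram G ![x, y, (1 - s) • z + s • p] ![x, y, (1 - s) • z + s • p]).det =
      (1 - s) ^ 2 * (P247K.gram G ![x, y, z] ![x, y, z]).det +
      2 * (s * (1 - s) * (P247K.gram G ![x, y, z] ![x, y, p]).det) +
      s ^ 2 * (P247K.gram G ![x, y, p] ![x, y, p]).det := by
    simp [P247K.gram, det_fin_three, bil_add_left, bil_add_right, bil_smul_left, bil_smul_right,
      bil_symm G hG y x, bil_symm G hG p, bil_symm G hG z x, bil_symm G hG z y]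
    ring
  rw [e]
  have h3 := mul_nonneg (mul_nonneg hs.1 (sub_nonneg.2 hs.2)) hp.le
  rcases hs.1.eq_or_lt with k | k
  · simpa [← k] using h1
  · positivity)

/-- scaling of the first vector -/
def sc (t : ℝ) (a : Fin 3 → ι → ℝ) : Fin 3 → ι → ℝ := ![t • a 0, a 1, a 2]

theorem sc_eq (t : ℝ) (a : Fin 3 → ι → ℝ) : sc t a = mul (diagonal ![t, 1, 1]) a := by
  funext i; fin_cases i <;> simp [sc, mul, lc, Fin.sum_univ_three]

theorem pos_sc (h : Pos G a) {t : ℝ} (ht : t ≠ 0) : Pos G (sc t a) :=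
  sc_eq t a ▸ h.mul (by simpa [Fin.prod_univ_three] using ht)

theorem reach (hG : ∀ i j, G i j = G j i) (hs : Sig G 3) (ha : Pos G a) (hb : Pos G b)
    (fa : Free G a) (fb : Free G b) : ∃ t ≠ 0, Relation.ReflTransGen (LMove G) a (sc t b) := by
  have key : ∀ b B, Pos G b → B.det ≠ 0 → Relation.ReflTransGen (LMove G) a (mul B b) →
      Relation.ReflTransGen (LMove G) a (sc B.det b) := fun b B hb hB h => h.trans (by
    have := sl3 hG (A := diagonal ![B.det, 1, 1] * B⁻¹) (by simp [Fin.prod_univ_three, hB]) _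
      (hb.mul hB)
    rwa [mul_mul, nonsing_inv_mul_cancel_right _ _ hB.isUnit, ← sc_eq] at this)
  obtain ⟨B, hB, h⟩ := chain hG hs (fun b => ∃ B : Matrix (Fin 3) (Fin 3) ℝ, B.det ≠ 0 ∧
    Relation.ReflTransGen (LMove G) a (mul B b)) (fun b A hA ⟨B, hB, h⟩ => ⟨B * A⁻¹, by
      simp [hA, hB], by rwa [mul_mul, nonsing_inv_mul_cancel_right _ _ hA.isUnit]⟩)
    (fun b c hb hc h0 h1 hd hr ⟨B, hB, h⟩ => ⟨diagonal ![B.det, 1, 1], by
      simpa [Fin.prod_univ_three] using hB, (key b B hb hB h).tail (sc_eq _ c ▸ ⟨2, fun j hj => by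
        fin_cases j <;> first | exact (hj rfl).elim | simp [sc, h0, h1], fun s hs => by
        have e : ∀ b : Fin 3 → ι → ℝ, b = ![b 0, b 1, b 2] := fun b => by
          funext i; fin_cases i <;> rfl
        rw [e b] at hb
        rw [e c, h0, h1] at hc
        rw [e b, e c, h0, h1] at hd
        convert posT hG (pos_sc (seg hG hb hc hd hs) hB) using 1
        funext j
        fin_cases j <;> simp [sc, h0, h1] <;> module, fun ρ hρ k _ => (hr ρ hρ (by
        simpa [sc, bil_smul_left, hB, bil_symm G hG (cs ℝ ρ)] using k 0 (by simp))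
        (by simpa [sc, bil_symm G hG (cs ℝ ρ)] using k 1 (by simp))).elim⟩)⟩)
    ha hb fa fb ⟨1, by simp, by rw [one_mul']⟩
  exact ⟨_, hB, key b B hb hB h⟩

/-- transport along isometries -/
noncomputable def kmap (K : P247K.DK G') (h : Isom G' G g) : P247K.DK G where
  F := act g K.F
  F' := act g K.F'
  m := act g K.m
  d i j := act g (K.d i j)
  C i := act g (K.C i)
  D j := act g (K.D j)
  b i := act g (K.b i)
  dd := by simpa only [h.bil] using K.dd
  CC := by simpa only [h.bil] using K.CC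
  DD := by simpa only [h.bil] using K.DD
  CD := by simpa only [h.bil] using K.CD
  Cd := by simpa only [h.bil] using K.Cd
  Dd := by simpa only [h.bil] using K.Dd
  hF i := by rw [← K.hF i, act_add, act_smul, act_sum]
  hF' i := by rw [← K.hF' i, act_add, act_smul, act_sum]
  hm := by simp only [← act_smul, K.hm, act_sum]
  b2 := by rw [K.b2, act_cs, act_sub, act_add, act_smul, act_smul]
  gr := by rw [← K.gr]; ext i j; exact h.bil _ _
  free x hx := by
    obtain ⟨y, rfl⟩ := h.act_surj x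
    simp only [← act_cs, h.bil] at hx ⊢
    exact K.free y hx
  ns x := by
    obtain ⟨y, rfl⟩ := h.act_surj x
    simp only [← act_cs, h.bil]
    rw [K.ns, ← h.act_inj.eq_iff]
    simp only [act_sub, act_add, act_smul, act_sum]
  kum x := by
    obtain ⟨y, rfl⟩ := h.act_surj x
    simp only [← act_cs, h.bil, ← act_neg, h.act_inj.eq_iff]
    exact K.kum y

theorem kpos (K : P247K.DK G) (hG : ∀ i j, G i j = G j i) : Pos G K.b := (pos_iff hG).2 (by
  rw [K.gr, posDef_diagonal_iff]
  intro i; fin_cases i <;> simp)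

theorem kwall (K : P247K.DK G) (hG : IsEU G) {t : ℝ} (ht : t ≠ 0) {r : ι → ℤ}
    (hr : bil G r r = -2) (h0 : bil G (K.b 0) (cs ℝ r) = 0 ∧ bil G (K.b 1) (cs ℝ r) = 0)
    (h1 : bil G ((3 : ℤ) • K.F + (3 : ℤ) • K.F' - K.m) r = 1) : Wall G (sc t K.b) r := by
  have hS := hG.symm
  have hp := pos_sc (kpos K hS) ht
  have g : ∀ i j, bil G (K.b i) (K.b j) = diagonal ![4 * √2, 4 * √2, 28] i j :=
    fun i j => congrFun (congrFun K.gr i) j
  set h := (3 : ℤ) • K.F + (3 : ℤ) • K.F' - K.m
  have b2 : K.b 2 = cs ℝ h := K.b2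
  have r1 : bil G (K.b 2) (cs ℝ r) = 1 := by rw [b2, bil_cs, h1]; simp
  have r2 : bil G (cs ℝ r) (cs ℝ r) = -2 := by rw [bil_cs, hr]; simp
  refine ⟨hr, by simp [sc, bil_smul_left, bil_symm G hS (cs ℝ r), h0],
    by simp [sc, bil_symm G hS (cs ℝ r), h0], K.b 2 + (1 / 2 : ℝ) • cs ℝ r, fun s hs => ?_, ?_,
    fun ρ hρ k0 k1 k2 => or_iff_not_imp_right.2 fun k => ?_⟩
  · refine posT hS (Pos.orth hS hp ?_ ?_ ?_) <;>
      simp [sc, bil_add_right, bil_smul_right, bil_add_left, bil_smul_left, g, h0, r1, r2,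
        bil_symm G hS (cs ℝ r) (K.b 2)]
    nlinarith [hs.1, hs.2]
  · simp [bil_add_right, bil_smul_right, r1, r2, bil_symm G hS (cs ℝ r) (K.b 2)]
  · simp only [sc, cons_val, bil_smul_right, mul_eq_zero, ht, false_or, b2, bil_add_right, bil_cs,
      not_lt] at k0 k1 k2 k
    have k3 : 1 ≤ bil G ρ h := by exact_mod_cast k2
    have k4 : 2 * bil G ρ h + bil G ρ r ≤ 0 := by
      have : (2 * bil G ρ h + bil G ρ r : ℝ) ≤ 0 := by linarith
      exact_mod_cast this
    have k5 : ρ - bil G ρ h • r = 0 := by_contra fun q => by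
      have := (kpos K hS).neg hS hG.sig (x := cs ℝ (ρ - bil G ρ h • r))
        (fun w => q (cs_inj (w.trans cs_zero.symm))) fun i => by
          rw [cs_sub, cs_smul, bil_sub_right, bil_smul_right]
          fin_cases i
          · simp [h0, bil_symm G hS _ (cs ℝ ρ), k0]
          · simp [h0, bil_symm G hS _ (cs ℝ ρ), k1]
          · simp [b2, bil_cs, h1, bil_symm G hS h ρ]
      rw [bil_cs, Int.cast_lt_zero] at this
      simp only [bil_sub_left, bil_sub_right, bil_smul_left, bil_smul_right, hr,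
        show bil G ρ ρ = -2 from hρ, bil_symm G hS r ρ] at this
      nlinarith
    rw [sub_eq_zero] at k5
    have k6 : bil G ρ ρ = -2 := hρ
    rw [k5, bil_smul_left, bil_smul_right, hr] at k6
    rwa [show bil G ρ h = 1 by nlinarith, one_smul] at k5

/-- extension by a negative definite summand -/
theorem kext (K : P247K.DK G) (hG : ∀ i j, G i j = G j i) (hs : ∀ i j, N i j = N j i)
    (hN : NegDef N) : Nonempty (P247K.DK (osum G N)) := by
  have g : ∀ i j, bil G (K.b i) (K.b j) = diagonal ![4 * √2, 4 * √2, 28] i j :=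
    fun i j => congrFun (congrFun K.gr i) j
  let φ : (ι → ℤ) × (κ → ℤ) → (Option κ → ℝ) →ₗ[ℝ] ℝ := fun x =>
    { toFun := fun v => v none * bil G (K.b 0) (cs ℝ x.1) + bil N (fun a => v (some a)) (cs ℝ x.2)
      map_add' := fun v w => by
        rw [show (fun a => (v + w) (some a)) = (fun a => v (some a)) + fun a => w (some a) from rfl,
          bil_add_left, Pi.add_apply]; ring
      map_smul' := fun c v => by
        rw [show (fun a => (c • v) (some a)) = c • fun a => v (some a) from rfl, bil_smul_left]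
        simp; ring }
  obtain ⟨v, v1, v2⟩ := (MeasureTheory.Measure.dense_of_ae (μ := MeasureTheory.volume)
    (MeasureTheory.ae_all_iff.2 fun x : {x : (ι → ℤ) × (κ → ℤ) // x.2 ≠ 0} =>
      MeasureTheory.measure_eq_zero_iff_ae_notMem.1 (MeasureTheory.Measure.addHaar_submodule _
        (LinearMap.ker (φ x.1)) fun k => (hN (cs ℝ x.1.2) fun q => x.2
          (cs_inj (q.trans cs_zero.symm))).ne (by simpa [φ] using k.ge (Submodule.mem_top
            (x := fun o => o.elim 0 (cs ℝ x.1.2))))))).exists_mem_open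
    (U := {v | 0 < v none ^ 2 * (4 * √2) + bil N (fun a => v (some a)) fun a => v (some a)})
    (isOpen_lt continuous_const (by unfold bil; fun_prop))
    ⟨fun o => o.elim 1 0, by simp [bil_zero_left, ← Pi.zero_def]⟩
  set u : κ → ℝ := fun a => v (some a)
  set s := v none ^ 2 * (4 * √2) + bil N u u with hs'
  have s0 : 0 < s := v2
  have t0 : v none ≠ 0 := fun k => by
    rw [hs', k] at s0; linarith [ModAux.NegDef.le hN u]
  set l := √(4 * √2 / s) with hl
  have l0 : l ≠ 0 := by positivity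
  have l2 : l * (l * s) = 4 * √2 := by
    rw [← mul_assoc, Real.mul_self_sqrt (by positivity), div_mul_cancel₀ _ s0.ne']
  let E : ∀ {R : Type} [Zero R], (ι → R) → ι ⊕ κ → R := fun x => Sum.elim x 0
  have e1 : ∀ {R : Type} [CommRing R] (x : ι ⊕ κ → R) (y : ι → R),
      bil (osum G N) x (E y) = bil G (fun i => x (.inl i)) y ∧
      bil (osum G N) (E y) x = bil G y fun i => x (.inl i) := fun x y => by
    simp [E, bil_osum, bil_zero_right, bil_zero_left, ← Pi.zero_def]
  have e2 : ∀ x y : ι → ℤ, bil (osum G N) (E x) (E y) = bil G x y := fun x y => (e1 _ y).1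
  have e3 : ∀ x : ι ⊕ κ → ℤ, bil (osum G N) (l • Sum.elim (v none • K.b 0) u) (cs ℝ x) = 0 ↔
      bil G (K.b 0) (cs ℝ fun i => x (.inl i)) = 0 ∧ (fun a => x (.inr a)) = 0 := fun x => by
    rw [bil_smul_left, mul_eq_zero, or_iff_right l0, bil_osum]
    show bil G (v none • K.b 0) (cs ℝ fun i => x (.inl i)) + bil N u (cs ℝ fun a => x (.inr a)) =
      0 ↔ _
    rw [bil_smul_left]
    refine ⟨fun h => ?_, fun h => by rw [h.1, h.2, cs_zero, bil_zero_right]; simp⟩
    have h1 : (fun a => x (.inr a)) = 0 := by_contra fun k => v1 ⟨(_, _), k⟩ h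
    rw [h1, cs_zero, bil_zero_right, add_zero] at h
    exact ⟨(mul_eq_zero.1 h).resolve_left t0, h1⟩
  have e4 : ∀ x : ι ⊕ κ → ℤ, (fun a => x (.inr a)) = 0 → x = E fun i => x (.inl i) := fun x h => by
    funext i; rcases i with i | i; exacts [rfl, congrFun h i]
  refine ⟨⟨E K.F, E K.F', E K.m, fun i j => E (K.d i j), fun i => E (K.C i), fun i => E (K.D i),
    ![l • Sum.elim (v none • K.b 0) u, E (K.b 1), E (K.b 2)], by simpa only [e2] using K.dd,
    by simpa only [e2] using K.CC, by simpa only [e2] using K.DD, by simpa only [e2] using K.CD,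
    by simpa only [e2] using K.Cd, by simpa only [e2] using K.Dd, fun i => ?_, fun i => ?_, ?_, ?_,
    ?_, fun x hx => by_contra fun k => ?_, fun x => ?_, fun x hx h0 h1 h2 h3 => ?_⟩⟩
  · rw [← K.hF i]; funext o; rcases o with o | o <;> simp [E, Finset.sum_apply]
  · rw [← K.hF' i]; funext o; rcases o with o | o <;> simp [E, Finset.sum_apply]
  · funext o
    rcases o with o | o
    · simpa [E, Finset.sum_apply] using congrFun K.hm o
    · simp [E, Finset.sum_apply]
  · show E (K.b 2) = _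
    rw [K.b2]; funext o; rcases o with o | o <;> simp [E, cs]
  · ext i j
    fin_cases i <;> fin_cases j <;> simp [P247K.gram, E, bil_osum_elim, bil_smul_left, bil_smul_right, g,
      bil_zero_left, bil_zero_right]
    linear_combination l2 - l * l * hs'
  · push Not at k
    obtain ⟨k1, k2⟩ := (e3 x).1 (k 0)
    rw [e4 x k2, e2] at hx
    obtain ⟨i, hi⟩ := K.free _ hx
    fin_cases i
    exacts [hi k1, hi ((e1 _ _).2.symm.trans (k 1)), hi ((e1 _ _).2.symm.trans (k 2))]
  · have k := K.ns fun i => x (.inl i)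
    simp only [cons_val, e3, (e1 x _).1]
    rw [(e1 (cs ℝ x) _).2]
    refine ⟨fun h => funext fun o => ?_, fun h => ?_⟩
    · rcases o with o | o
      · simpa [E, Finset.sum_apply] using congrFun (k.1 ⟨h.1.1, h.2⟩) o
      · simpa [E, Finset.sum_apply] using congrFun h.1.2 o
    · have k1 := k.2 (funext fun o => by simpa [E, Finset.sum_apply] using congrFun h (.inl o))
      exact ⟨⟨k1.1, funext fun o => by simpa [E, Finset.sum_apply] using congrFun h (.inr o)⟩, k1.2⟩
  · obtain ⟨k1, k2⟩ := (e3 x).1 h0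
    rw [e4 x k2, e2] at hx
    obtain ⟨i, j, h⟩ := K.kum _ hx k1 ((e1 _ _).2.symm.trans h1) ((e1 _ _).1.symm.trans h2)
      ((e1 _ _).1.symm.trans h3)
    refine ⟨i, j, h.imp (fun h => by rw [e4 x k2, h]) fun h => ?_⟩
    rw [e4 x k2, h]; funext o; rcases o with o | o <;> simp [E]

theorem exists_dk (hG : IsEU G) (hn : 22 ≤ Fintype.card ι) : Nonempty (P247K.DK G) := by
  obtain ⟨E, h1, h2, h3, h4⟩ := exists_E8 ((Fintype.card ι - 22) / 8)
  obtain ⟨K⟩ := kext P247K.M.dk P290Z.N.G0_symm h1 h4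
  obtain ⟨g, hg⟩ := hG.iso (IsEU.osum ⟨P290Z.N.G0_symm, P290Z.N.G0_even, P290Z.N.G0_unit, Top.Cf.sig0⟩ h1 h2 h3 h4)
    (by have := hG.mod; simp; omega)
  exact ⟨kmap K hg⟩

/-- **block K** -/
theorem period' (hG : IsEU G) (hn : 22 ≤ Fintype.card ι) (ha : PosT G a)
    (fa : ∀ ρ, Root G ρ → ∃ i, bil G (cs ℝ ρ) (a i) ≠ 0) :
    ∃ K : DK G, Relation.ReflTransGen (LMove G) a K.k := by
  have hS := hG.symm
  obtain ⟨K⟩ := exists_dk hG hn
  obtain ⟨t, ht, h⟩ := reach hS hG.sig ((pos_iff hS).2 ha) (kpos K hS)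
    (fun d hd => by simpa only [bil_symm G hS (cs ℝ d)] using fa d hd) K.free
  have F1 : ∀ r i, bil G r K.F = 2 * bil G r (K.C i) + ∑ j, bil G r (K.d i j) := fun r i => by
    rw [← K.hF i, bil_add_right, bil_smul_right, bil_sum_right]
  have F2 : ∀ r j, bil G r K.F' = 2 * bil G r (K.D j) + ∑ i, bil G r (K.d i j) := fun r j => by
    rw [← K.hF' j, bil_add_right, bil_smul_right, bil_sum_right]
  have dF : ∀ i j, bil G (K.d i j) K.F = 0 := fun i j => by
    simp [F1 _ i, K.dd, bil_symm G hS _ (K.C _), K.Cd]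
  have dF' : ∀ i j, bil G (K.d i j) K.F' = 0 := fun i j => by
    simp [F2 _ j, K.dd, bil_symm G hS _ (K.D _), K.Dd]
  have CF : ∀ i, bil G (K.C i) K.F = 0 := fun i => by simp [F1 _ i, K.CC, K.Cd]
  have CF' : ∀ i, bil G (K.C i) K.F' = 1 := fun i => by simp [F2 _ i, K.CD, K.Cd]
  have DF : ∀ i, bil G (K.D i) K.F = 1 := fun i => by
    simp [F1 _ i, bil_symm G hS _ (K.C _), K.CD, K.Dd]
  have DF' : ∀ i, bil G (K.D i) K.F' = 0 := fun i => by simp [F2 _ i, K.DD, K.Dd]
  have hm : ∀ r, 2 * bil G r K.m = ∑ i, ∑ j, bil G r (K.d i j) := fun r => by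
    simp only [← bil_smul_right, K.hm, bil_sum_right]
  have w : ∀ r, bil G r r = -2 → (2 : ℤ) • r = bil G r K.F' • K.F + bil G r K.F • K.F' -
      ∑ i, ∑ j, bil G r (K.d i j) • K.d i j → 6 * bil G r K.F + 6 * bil G r K.F' -
      ∑ i, ∑ j, bil G r (K.d i j) = 2 → Wall G (sc t K.b) r := fun r h1 h2 h3 =>
    kwall K hG ht h1 ((K.ns r).2 h2) (by
      rw [bil_symm G hS, bil_sub_right, bil_add_right, bil_smul_right, bil_smul_right]
      linarith [hm r])
  refine ⟨⟨K.d, K.C, K.D, K.F, K.F', sc t K.b, K.dd, K.CC, K.DD, K.CD, K.Cd, K.Dd,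
    fun i => (K.hF i).symm, fun j => (K.hF' j).symm, posT hS (pos_sc (kpos K hS) ht),
    fun i j => w _ (by simp [K.dd]) ?_ ?_, fun i => w _ (by simp [K.CC]) ?_ ?_,
    fun i => w _ (by simp [K.DD]) ?_ ?_, fun v h0 h1 hd hC hD => ?_⟩, h⟩
  · simp [dF, dF', K.dd, ite_and]
  · simp [dF, dF', K.dd, ite_and]
  · rw [CF, CF', ← K.hF i]; simp [K.Cd]
  · simp [CF, CF', K.Cd]
  · rw [DF, DF', ← K.hF' i]; simp [K.Dd]
  · simp [DF, DF', K.Dd]
  · simpa [F1 v 0, F2 v 0, hd, hC, hD, -zsmul_eq_mul] using (K.ns v).1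
      ⟨by simpa [sc, bil_smul_left, ht, bil_symm G hS (cs ℝ v)] using h0,
      by simpa [sc, bil_symm G hS (cs ℝ v)] using h1⟩

theorem period : PERIOD_statement := fun n G hG hn a => period' hG (by simpa)

end Vale.Agent.P247G
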